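import Vale.Agent.Lib.P087.Fock
import Vale.Agent.Lib.P087.Hilb

/-!
# P087: the free group-like von Neumann algebra: commutant of the right semicircular operators,
its trace, and the existence of a Fock system
-/

namespace P087

open scoped Classical

noncomputable section

variable {I : Type}

/-- the von Neumann algebra: commutant of the right semicircular operators -/
def MM (I : Type) : VonNeumannAlgebra (FH I) where
  toStarSubalgebra := StarSubalgebra.centralizer ℂ (Set.range (d : I → FH I →L[ℂ] FH I))
  centralizer_centralizer' := by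
    change Set.centralizer (Set.centralizer (Set.centralizer _)) = Set.centralizer _
    exact Set.centralizer_centralizer_centralizer _

theorem mem_MM {a : FH I →L[ℂ] FH I} : a ∈ MM I ↔ ∀ i, d i * a = a * d i := by
  have h1 : a ∈ MM I ↔ a ∈ StarSubalgebra.centralizer ℂ (Set.range (d : I → FH I →L[ℂ] FH I)) :=
    Iff.rfl
  rw [h1, StarSubalgebra.mem_centralizer_iff]
  constructor
  · intro h i
    exact (h (d i) ⟨i, rfl⟩).1
  · rintro h _ ⟨i, rfl⟩
    refine ⟨h i, ?_⟩
    rw [star_d]
    exact h i

theorem y_mem (i : I) : y i ∈ MM I := mem_MM.mpr fun j => (y_d i j).symm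

theorem rc_eq (i : I) (ξ : FH I) : rc i ξ = d i ξ - ra i ξ := by
  change rc i ξ = (rc i ξ + ra i ξ) - ra i ξ
  rw [add_sub_cancel_right]

theorem comm_apply {a : FH I →L[ℂ] FH I} (ha : a ∈ MM I) (i : I) (ξ : FH I) :
    d i (a ξ) = a (d i ξ) := by
  have h := mem_MM.mp ha i
  exact congrArg (fun A : FH I →L[ℂ] FH I => A ξ) h

/-- a property of basis vectors proved by the right letter -/
theorem ra_e_cases (i : I) (u : List I) :
    ra i (e u) = 0 ∨ ∃ v, v.length + 1 = u.length ∧ u = v ++ [i] ∧ ra i (e u) = e v := by
  rcases List.eq_nil_or_concat u with h | ⟨v, j, h⟩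
  · left
    rw [h, ra_e_nil]
  · by_cases hj : j = i
    · right
      refine ⟨v, by rw [h]; simp, by rw [h, hj]; simp, ?_⟩
      rw [h, hj, List.concat_eq_append, ra_e_self]
    · left
      rw [h, List.concat_eq_append, ra_e_ne hj]

/-- the vacuum is separating for `M` -/
theorem faithful_MM {a : FH I →L[ℂ] FH I} (ha : a ∈ MM I) (h0 : a (e []) = 0) : a = 0 := by
  have key : ∀ n : ℕ, ∀ w : List I, w.length ≤ n → a (e w) = 0 := by
    intro n
    induction n with
    | zero =>
      intro w hw
      have : w = [] := List.length_eq_zero_iff.mp (Nat.le_zero.mp hw)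
      rw [this, h0]
    | succ n ih =>
      intro w hw
      rcases List.eq_nil_or_concat w with h | ⟨u, i, h⟩
      · rw [h, h0]
      · rw [List.concat_eq_append] at h
        have hu : u.length ≤ n := by
          rw [h, List.length_append, List.length_singleton] at hw
          omega
        rw [h, ← rc_e, rc_eq, map_sub, ← comm_apply ha, ih u hu, map_zero, zero_sub, neg_eq_zero]
        rcases ra_e_cases i u with h2 | ⟨v, hv, _, h2⟩
        · rw [h2, map_zero]
        · rw [h2]
          exact ih v (by omega)
  apply op_ext
  intro w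
  rw [key w.length w le_rfl]
  rfl

theorem inner_adj (a : FH I →L[ℂ] FH I) (ξ η : FH I) : inner ℂ ξ (star a η) = inner ℂ (a ξ) η := by
  rw [ContinuousLinearMap.star_eq_adjoint, ContinuousLinearMap.adjoint_inner_right]

theorem inner_sa {a : FH I →L[ℂ] FH I} (h : star a = a) (ξ η : FH I) :
    inner ℂ ξ (a η) = inner ℂ (a ξ) η := by
  rw [← inner_adj, h]

/-- `a ↦ a*` on vectors `a Ω` is the conjugate-linear flip of words -/
theorem flip_MM : ∀ n : ℕ, ∀ w : List I, w.length ≤ n → ∀ a : FH I →L[ℂ] FH I, a ∈ MM I →
    inner ℂ (e w) (star a (e [])) = inner ℂ (a (e [])) (e w.reverse) := by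
  intro n
  induction n with
  | zero =>
    intro w hw a _
    have : w = [] := List.length_eq_zero_iff.mp (Nat.le_zero.mp hw)
    rw [this, inner_adj, List.reverse_nil]
  | succ n ih =>
    intro w hw a ha
    rcases List.eq_nil_or_concat w with h | ⟨u, i, h⟩
    · rw [h, inner_adj, List.reverse_nil]
    · rw [List.concat_eq_append] at h
      have hu : u.length ≤ n := by
        rw [h, List.length_append, List.length_singleton] at hw
        omega
      have hstar : star a ∈ MM I := star_mem ha
      have hya : y i * a ∈ MM I := mul_mem (y_mem i) ha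
      have e1 : inner ℂ (d i (e u)) (star a (e [])) = inner ℂ (a (e [])) (y i (e u.reverse)) := by
        rw [← inner_sa (star_d i), comm_apply hstar, d_e_nil, ← y_e_nil]
        have h3 : star a (y i (e [])) = star (y i * a) (e []) := by
          rw [star_mul, star_y]
          rfl
        rw [h3, ih u hu _ hya]
        change inner ℂ (y i (a (e []))) _ = _
        rw [← inner_sa (star_y i)]
      have e2 : inner ℂ (ra i (e u)) (star a (e [])) = inner ℂ (a (e [])) (la i (e u.reverse)) := by
        rcases List.eq_nil_or_concat u with h2 | ⟨v, j, h2⟩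
        · rw [h2, List.reverse_nil, ra_e_nil, la_e_nil, inner_zero_left, inner_zero_right]
        · rw [List.concat_eq_append] at h2
          have hv : v.length ≤ n := by
            rw [h2, List.length_append, List.length_singleton] at hu
            omega
          rw [h2, List.reverse_append, List.reverse_singleton, List.singleton_append]
          by_cases hj : j = i
          · rw [hj, ra_e_self, la_e_self]
            exact ih v hv a ha
          · rw [ra_e_ne hj, la_e_ne hj, inner_zero_left, inner_zero_right]
      rw [h, ← rc_e, rc_eq, inner_sub_left, e1, e2, ← inner_sub_right, List.reverse_append,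
        List.reverse_singleton, List.singleton_append, ← lc_e]
      congr 1
      change (lc i (e u.reverse) + la i (e u.reverse)) - la i (e u.reverse) = _
      rw [add_sub_cancel_right]

theorem star_coeff {a : FH I →L[ℂ] FH I} (ha : a ∈ MM I) (w : List I) :
    (star a (e [])) w = (starRingEnd ℂ) ((a (e [])) w.reverse) := by
  rw [← inner_e, flip_MM w.length w le_rfl a ha, inner_e_right]

theorem inner_prod {a b : FH I →L[ℂ] FH I} (ha : a ∈ MM I) :
    inner ℂ (e []) ((a * b) (e [])) = ∑' w : List I, (a (e [])) w.reverse * (b (e [])) w := by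
  have h1 : inner ℂ (e []) ((a * b) (e [])) = inner ℂ (star a (e [])) (b (e [])) := by
    rw [← inner_adj, star_star]
    rfl
  rw [h1, lp.inner_eq_tsum]
  refine tsum_congr fun w => ?_
  rw [RCLike.inner_apply, star_coeff ha, RCLike.conj_conj, mul_comm]

theorem trace_MM {a b : FH I →L[ℂ] FH I} (ha : a ∈ MM I) (hb : b ∈ MM I) :
    inner ℂ (e []) ((a * b) (e [])) = inner ℂ (e []) ((b * a) (e [])) := by
  rw [inner_prod ha, inner_prod hb]
  have hr : Function.Involutive (List.reverse : List I → List I) := List.reverse_reverse
  rw [← (hr.toPerm).tsum_eq fun w : List I => (b (e [])) w.reverse * (a (e [])) w]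
  refine tsum_congr fun w => ?_
  change _ = (b (e [])) w.reverse.reverse * (a (e [])) w.reverse
  rw [List.reverse_reverse, mul_comm]

/-- the tracial von Neumann algebra -/
def TT (I : Type) : TracialVN (FH I) where
  M := MM I
  Ω := e []
  norm_Ω := norm_e []
  trace_comm := fun _ ha _ hb => trace_MM ha hb
  faithful := fun _ ha h => faithful_MM ha h

theorem orthonormal_e : Orthonormal ℂ (e : List I → FH I) := by
  rw [orthonormal_iff_ite]
  intro u v
  rw [inner_e]
  by_cases h : u = v
  · rw [if_pos h, h, e_self]
  · rw [if_neg h, e_ne h]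

/-- the Fock system -/
def fockSys (I : Type) [DecidableEq I] : FockSys (TT I) I where
  y := y
  e := e
  y_mem := y_mem
  y_sa := star_y
  e_on := orthonormal_e
  e_nil := rfl
  act_nil := y_e_nil
  act_cons := fun i j w => by
    by_cases h : i = j
    · subst h
      rw [if_pos rfl, y_e_self]
    · rw [if_neg h, add_zero, y_e_ne (fun h2 => h h2.symm)]

end

theorem exists_fock (I : Type) [Fintype I] [DecidableEq I] :
    ∃ (H : Type) (_ : NormedAddCommGroup H) (_ : InnerProductSpace ℂ H) (_ : CompleteSpace H)
      (T : TracialVN H), Nonempty (FockSys T I) :=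
  ⟨FH I, inferInstance, inferInstance, inferInstance, TT I, ⟨fockSys I⟩⟩

end P087
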