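import Vale.Agent.Lib.P087.Hilb
import Vale.Agent.Lib.P087.W.Cf

/-! P087 part F: freeness and semicircularity inside an abstract Fock system. -/

open scoped ENNReal

namespace P087

variable {H : Type} [NormedAddCommGroup H] [InnerProductSpace ℂ H] [CompleteSpace H]
variable {T : TracialVN H} {I : Type} [DecidableEq I]

namespace FockSys

/-- the vector `Σ_v f(v) e_{v ++ w}` -/
noncomputable def vec (F : FockSys T I) (f : List I →₀ ℂ) (w : List I) : H :=
  f.sum fun v z => z • F.e (v ++ w)

/-- all words of the support use only letters of the set `S` -/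
def Only (S : Set I) (f : List I →₀ ℂ) : Prop := ∀ v ∈ f.support, ∀ x ∈ v, x ∈ S

/-- `a` acts on `e_{v ++ w}` as on `e_v` -/
def Acts (F : FockSys T I) (S : Set I) (a : H →L[ℂ] H) : Prop :=
  ∀ v : List I, (∀ x ∈ v, x ∈ S) → ∃ f : List I →₀ ℂ, Only S f ∧
    ∀ w : List I, (∀ x ∈ w.head?, x ∉ S) → a (F.e (v ++ w)) = F.vec f w

theorem vec_add (F : FockSys T I) (f g : List I →₀ ℂ) (w : List I) :
    F.vec (f + g) w = F.vec f w + F.vec g w := by
  unfold vec
  rw [Finsupp.sum_add_index']
  · intro v; simp
  · intro v z z'; rw [add_smul]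

theorem vec_smul (F : FockSys T I) (c : ℂ) (f : List I →₀ ℂ) (w : List I) :
    F.vec (c • f) w = c • F.vec f w := by
  unfold vec
  rw [Finsupp.sum_smul_index', Finsupp.smul_sum]
  · simp only [smul_eq_mul, mul_smul]
  · intro v; simp

theorem vec_single (F : FockSys T I) (v : List I) (z : ℂ) (w : List I) :
    F.vec (Finsupp.single v z) w = z • F.e (v ++ w) := by
  unfold vec
  rw [Finsupp.sum_single_index]
  simp

theorem vec_zero (F : FockSys T I) (w : List I) : F.vec 0 w = 0 := by
  unfold vec
  simp

theorem only_add {S : Set I} {f g : List I →₀ ℂ} (hf : Only S f) (hg : Only S g) :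
    Only S (f + g) := by
  intro v hv x hx
  rcases Finset.mem_union.1 (Finsupp.support_add hv) with h | h
  · exact hf v h x hx
  · exact hg v h x hx

theorem only_smul {S : Set I} {f : List I →₀ ℂ} (c : ℂ) (hf : Only S f) :
    Only S (c • f) := fun v hv x hx => hf v (Finsupp.support_smul hv) x hx

theorem only_single {S : Set I} {v : List I} (c : ℂ) (hv : ∀ x ∈ v, x ∈ S) :
    Only S (Finsupp.single v c) := by
  intro u hu x hx
  have := Finsupp.support_single_subset hu
  rw [Finset.mem_singleton] at this
  subst this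
  exact hv x hx

theorem only_zero {S : Set I} : Only S (0 : List I →₀ ℂ) := by
  intro v hv
  simp at hv

/-- extension of the action from words to finitely supported functions -/
theorem acts_vec (F : FockSys T I) {S : Set I} {a : H →L[ℂ] H} (ha : F.Acts S a)
    (f : List I →₀ ℂ) (hf : Only S f) :
    ∃ g : List I →₀ ℂ, Only S g ∧
      ∀ w : List I, (∀ x ∈ w.head?, x ∉ S) → a (F.vec f w) = F.vec g w := by
  induction f using Finsupp.induction with
  | zero => exact ⟨0, only_zero, fun w _ => by rw [vec_zero, map_zero]⟩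
  | single_add v z f hv hz ih =>
    have h1 : ∀ x ∈ v, x ∈ S := by
      refine hf v ?_
      rw [Finsupp.mem_support_iff, Finsupp.add_apply, Finsupp.single_eq_same,
        Finsupp.notMem_support_iff.1 hv, add_zero]
      exact hz
    have h2 : Only S f := by
      intro u hu
      refine hf u ?_
      have hne : u ≠ v := fun h => hv (h ▸ hu)
      rw [Finsupp.mem_support_iff, Finsupp.add_apply, Finsupp.single_eq_of_ne hne, zero_add]
      exact Finsupp.mem_support_iff.1 hu
    obtain ⟨g, hg, hgw⟩ := ih h2
    obtain ⟨g', hg', hgw'⟩ := ha v h1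
    refine ⟨z • g' + g, only_add (only_smul z hg') hg, fun w hw => ?_⟩
    rw [vec_add, vec_add, map_add, vec_single, map_smul, hgw w hw, hgw' w hw, vec_smul]

theorem acts_adjoin (F : FockSys T I) (S : Set I) (a : H →L[ℂ] H)
    (ha : a ∈ Algebra.adjoin ℂ (F.y '' S)) : F.Acts S a := by
  induction ha using Algebra.adjoin_induction with
  | mem a ha =>
    obtain ⟨i, hi, rfl⟩ := ha
    intro v hv
    cases v with
    | nil =>
      refine ⟨Finsupp.single [i] 1, only_single 1 (by simpa using hi), fun w hw => ?_⟩
      rw [vec_single, one_smul, List.nil_append]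
      cases w with
      | nil => rw [F.act_nil]; rfl
      | cons j w =>
        have hj : j ∉ S := hw j (by simp)
        have hij : i ≠ j := fun h => hj (h ▸ hi)
        rw [F.act_cons, if_neg hij, add_zero]
        rfl
    | cons j v =>
      refine ⟨Finsupp.single (i :: j :: v) 1 + (if i = j then Finsupp.single v 1 else 0),
        only_add (only_single 1 ?_) ?_, fun w _ => ?_⟩
      · intro x hx
        rcases List.mem_cons.1 hx with rfl | hx
        · exact hi
        · exact hv x hx
      · split_ifs
        · exact only_single 1 fun x hx => hv x (List.mem_cons_of_mem _ hx)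
        · exact only_zero
      · rw [vec_add, vec_single, one_smul, List.cons_append, F.act_cons]
        split_ifs
        · rw [vec_single, one_smul]; rfl
        · rw [vec_zero]; rfl
  | algebraMap c =>
    intro v hv
    refine ⟨Finsupp.single v c, only_single c hv, fun w _ => ?_⟩
    rw [vec_single, Algebra.algebraMap_eq_smul_one]
    rfl
  | add a b _ _ iha ihb =>
    intro v hv
    obtain ⟨f, hf, hfw⟩ := iha v hv
    obtain ⟨g, hg, hgw⟩ := ihb v hv
    refine ⟨f + g, only_add hf hg, fun w hw => ?_⟩
    rw [vec_add, ContinuousLinearMap.add_apply, hfw w hw, hgw w hw]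
  | mul a b _ _ iha ihb =>
    intro v hv
    obtain ⟨g, hg, hgw⟩ := ihb v hv
    obtain ⟨f, hf, hfw⟩ := F.acts_vec iha g hg
    refine ⟨f, hf, fun w hw => ?_⟩
    rw [ContinuousLinearMap.mul_apply, hgw w hw, hfw w hw]

theorem inner_vec_nil (F : FockSys T I) (f : List I →₀ ℂ) :
    inner ℂ T.Ω (F.vec f []) = f [] := by
  unfold vec
  rw [← F.e_nil, Finsupp.inner_sum]
  rw [Finsupp.sum, Finset.sum_eq_single ([] : List I)]
  · simp only [List.append_nil, inner_smul_right, orthonormal_iff_ite.1 F.e_on, if_true, mul_one]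
  · intro v _ hv
    simp only [List.append_nil, inner_smul_right, orthonormal_iff_ite.1 F.e_on]
    rw [if_neg (Ne.symm hv), mul_zero]
  · intro h
    rw [Finsupp.notMem_support_iff.1 h, zero_smul, inner_zero_right]

/-- span of the words beginning with a letter of colour `k` -/
noncomputable def Beg (F : FockSys T I) {ι : Type} (c : I → ι) (k : ι) : Submodule ℂ H :=
  Submodule.span ℂ {f | ∃ x w, c x = k ∧ f = F.e (x :: w)}

theorem vec_mem_Beg (F : FockSys T I) {ι : Type} (c : I → ι) (k : ι) (f : List I →₀ ℂ)
    (hf : Only {x | c x = k} f) (h0 : f [] = 0) (w : List I) : F.vec f w ∈ F.Beg c k := by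
  unfold vec
  refine Submodule.sum_mem _ fun v hv => ?_
  cases v with
  | nil => exact absurd h0 (Finsupp.mem_support_iff.1 hv)
  | cons x v =>
    refine Submodule.smul_mem _ _ (Submodule.subset_span ⟨x, v ++ w, ?_, rfl⟩)
    exact hf _ hv x (by simp)

theorem centered (F : FockSys T I) {ι : Type} (c : I → ι) (k : ι) (a : H →L[ℂ] H)
    (ha : a ∈ Algebra.adjoin ℂ (F.y '' {x | c x = k})) (h0 : T.tr a = 0) :
    a T.Ω ∈ F.Beg c k ∧ ∀ k' ≠ k, ∀ ξ ∈ F.Beg c k', a ξ ∈ F.Beg c k := by
  obtain ⟨f, hf, hfw⟩ := F.acts_adjoin _ a ha [] (by simp)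
  have h1 : a T.Ω = F.vec f [] := by
    rw [← F.e_nil]
    exact hfw [] (by simp)
  have h2 : f [] = 0 := by
    rw [← F.inner_vec_nil f, ← h1]
    exact h0
  refine ⟨h1 ▸ F.vec_mem_Beg c k f hf h2 [], fun k' hk' ξ hξ => ?_⟩
  unfold Beg at hξ
  induction hξ using Submodule.span_induction with
  | mem ξ h =>
    obtain ⟨x, w, hx, rfl⟩ := h
    have := hfw (x :: w) (by
      intro z hz
      rw [List.head?_cons, Option.mem_some_iff] at hz
      subst hz
      rw [Set.mem_setOf_eq, hx]
      exact hk')
    rw [List.nil_append] at this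
    rw [this]
    exact F.vec_mem_Beg c k f hf h2 _
  | zero => rw [map_zero]; exact Submodule.zero_mem _
  | add ξ η _ _ h h' => rw [map_add]; exact Submodule.add_mem _ h h'
  | smul z ξ _ h => rw [map_smul]; exact Submodule.smul_mem _ _ h

theorem alt_prod (F : FockSys T I) {ι : Type} (c : I → ι) (m : ℕ) (i : Fin (m + 1) → ι)
    (a : Fin (m + 1) → H →L[ℂ] H) (hne : ∀ l : Fin m, i l.castSucc ≠ i l.succ)
    (ha : ∀ l, a l ∈ Algebra.adjoin ℂ (F.y '' {x | c x = i l})) (h0 : ∀ l, T.tr (a l) = 0) :
    (List.ofFn a).prod T.Ω ∈ F.Beg c (i 0) := by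
  induction m with
  | zero =>
    rw [List.ofFn_succ, List.ofFn_zero, List.prod_cons, List.prod_nil, mul_one]
    exact (F.centered c (i 0) (a 0) (ha 0) (h0 0)).1
  | succ m ih =>
    rw [List.ofFn_succ, List.prod_cons, ContinuousLinearMap.mul_apply]
    have h := ih (fun l => i l.succ) (fun l => a l.succ) (fun l => hne l.succ)
      (fun l => ha l.succ) (fun l => h0 l.succ)
    exact (F.centered c (i 0) (a 0) (ha 0) (h0 0)).2 _ (fun h => hne 0 h.symm) _ h

theorem inner_Beg (F : FockSys T I) {ι : Type} (c : I → ι) (k : ι) (ξ : H) (hξ : ξ ∈ F.Beg c k) :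
    inner ℂ T.Ω ξ = 0 := by
  unfold Beg at hξ
  induction hξ using Submodule.span_induction with
  | mem ξ h =>
    obtain ⟨x, w, hx, rfl⟩ := h
    rw [← F.e_nil, orthonormal_iff_ite.1 F.e_on, if_neg (List.cons_ne_nil _ _).symm]
  | zero => rw [inner_zero_right]
  | add ξ η _ _ h h' => rw [inner_add_right, h, h', add_zero]
  | smul z ξ _ h => rw [inner_smul_right, h, mul_zero]

/-- the algebras generated by the letters of one colour are free -/
theorem isFree_colour (F : FockSys T I) {ι : Type} (c : I → ι) :
    IsFree T (fun k : ι => Algebra.adjoin ℂ (F.y '' {x | c x = k})) := by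
  intro m i a hne ha h0
  exact F.inner_Beg c (i 0) _ (F.alt_prod c m i a hne ha h0)

/-- matrix coefficients of words -/
theorem inner_word (F : FockSys T I) (Q w : List I) :
    inner ℂ (F.e w) (wordOp F.y Q T.Ω) = ((cf Q w : ℝ) : ℂ) := by
  induction Q generalizing w with
  | nil =>
    rw [wordOp, List.map_nil, List.prod_nil, ContinuousLinearMap.one_apply, ← F.e_nil,
      orthonormal_iff_ite.1 F.e_on]
    cases w <;> simp [cf]
  | cons i Q ih =>
    have hw : wordOp F.y (i :: Q) T.Ω = F.y i (wordOp F.y Q T.Ω) := by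
      rw [wordOp, List.map_cons, List.prod_cons, ContinuousLinearMap.mul_apply]
      rfl
    have hsa : inner ℂ (F.e w) (F.y i (wordOp F.y Q T.Ω))
        = inner ℂ (F.y i (F.e w)) (wordOp F.y Q T.Ω) := by
      have h := (F.y_sa i).adjoint_eq
      rw [← ContinuousLinearMap.adjoint_inner_left, h]
    rw [hw, hsa]
    cases w with
    | nil => rw [F.act_nil, ih]; simp [cf]
    | cons j w =>
      rw [F.act_cons, inner_add_left, ih]
      by_cases hij : i = j
      · rw [if_pos hij, ih, cf, if_pos hij]; push_cast; ring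
      · rw [if_neg hij, inner_zero_left, cf, if_neg hij]; push_cast; ring

theorem tr_word (F : FockSys T I) (Q : List I) :
    T.tr (wordOp F.y Q) = ((mom Q : ℝ) : ℂ) := by
  have h := F.inner_word Q []
  rw [F.e_nil] at h
  exact h

theorem mom_replicate_succ (i : I) (n : ℕ) :
    mom (List.replicate (n + 1) i)
      = ∑ l ∈ Finset.range n, mom (List.replicate l i) * mom (List.replicate (n - (l + 1)) i) := by
  rw [List.replicate_succ, mom_cons, ssum, List.length_replicate]
  refine Finset.sum_congr rfl fun l hl => ?_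
  have hl' : l < n := Finset.mem_range.1 hl
  rw [if_pos (by rw [List.getElem?_replicate, if_pos hl']), List.take_replicate, List.drop_replicate,
    Nat.min_eq_left hl'.le]

theorem sum_range_even (f : ℕ → ℝ) (hf : ∀ j, f (2 * j + 1) = 0) (k : ℕ) :
    ∑ l ∈ Finset.range (2 * k + 1), f l = ∑ j ∈ Finset.range (k + 1), f (2 * j) := by
  induction k with
  | zero => simp
  | succ k ih =>
    rw [Finset.sum_range_succ _ (k + 1), ← ih, show 2 * (k + 1) + 1 = (2 * k + 1) + 1 + 1 by ring,
      Finset.sum_range_succ, Finset.sum_range_succ, hf, add_zero,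
      show 2 * k + 1 + 1 = 2 * (k + 1) by ring]

theorem mom_replicate_odd (i : I) (k : ℕ) : mom (List.replicate (2 * k + 1) i) = 0 :=
  mom_odd _ (by rw [List.length_replicate]; exact ⟨k, rfl⟩)

theorem mom_replicate_even (i : I) (k : ℕ) :
    mom (List.replicate (2 * k) i) = (catalan k : ℝ) := by
  induction k using Nat.strong_induction_on with
  | _ k ih =>
    cases k with
    | zero => simp [mom_nil]
    | succ k =>
      rw [show 2 * (k + 1) = (2 * k + 1) + 1 by ring, mom_replicate_succ,
        sum_range_even (fun l => mom (List.replicate l i) *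
          mom (List.replicate (2 * k + 1 - (l + 1)) i))
          (fun j => by rw [mom_replicate_odd, zero_mul]), catalan_succ, Finset.sum_range]
      push_cast
      refine Finset.sum_congr rfl fun j _ => ?_
      have hj : (j : ℕ) < k + 1 := j.isLt
      rw [ih j hj, show 2 * k - 2 * (j : ℕ) = 2 * (k - (j : ℕ)) by omega,
        ih (k - j) (by omega)]

theorem isSemicircular (F : FockSys T I) (i : I) : IsSemicircular T (F.y i) := by
  intro k
  have h : ∀ n : ℕ, F.y i ^ n = wordOp F.y (List.replicate n i) := by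
    intro n
    rw [wordOp, List.map_replicate, List.prod_replicate]
  rw [h, h, F.tr_word, F.tr_word, mom_replicate_even, mom_replicate_odd]
  simp

end FockSys

variable {r : ℕ}

/-- colour of a letter: `none` for the letters of `X`, `some j` for the outer noise letter `j` -/
def frColour : Let r → Option (K r)
  | Sum.inl _ => none
  | Sum.inr j => some j

theorem fr_Xop_zero_mem (F : FockSys T (Let r)) (i : K r) :
    Xop F 0 i ∈ Algebra.adjoin ℂ (F.y '' {x | frColour x = none}) := by
  have hy : ∀ x : K r, F.y (Sum.inl x) ∈ Algebra.adjoin ℂ (F.y '' {x | frColour x = none}) :=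
    fun x => Algebra.subset_adjoin ⟨Sum.inl x, rfl, rfl⟩
  have hw : ∀ Q : List (K r), wordOp F.y (Q.map Sum.inl) ∈
      Algebra.adjoin ℂ (F.y '' {x | frColour x = none}) := by
    intro Q
    refine Subalgebra.list_prod_mem _ ?_
    intro a ha
    rw [List.map_map, List.mem_map] at ha
    obtain ⟨x, _, rfl⟩ := ha
    exact hy x
  refine Subalgebra.list_sum_mem _ ?_
  intro a ha
  rw [List.mem_map] at ha
  obtain ⟨cm, hcm, rfl⟩ := ha
  cases i with
  | inl a =>
    simp only [mons, List.mem_cons, List.not_mem_nil, or_false] at hcm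
    rcases hcm with rfl | rfl
    · exact Subalgebra.smul_mem _ (hw [Sum.inl a]) _
    · simp
  | inr abc =>
    obtain ⟨a, b, c⟩ := abc
    simp only [mons, List.mem_cons, List.not_mem_nil, or_false] at hcm
    rcases hcm with rfl | rfl | rfl | rfl
    · exact Subalgebra.smul_mem _ (hw [Sum.inl a, Sum.inl b, Sum.inl c]) _
    · exact Subalgebra.smul_mem _ (hw [Sum.inl c, Sum.inl b, Sum.inl a]) _
    · exact Subalgebra.smul_mem _ (hw [Sum.inr (a, b, c)]) _
    · simp

/-- FINAL (part F) -/
theorem free_semicircular (F : FockSys T (Let r)) :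
    FreeSemicircularFrom T (Xop F 0) (fun i => F.y (out i)) := by
  refine ⟨fun j => F.isSemicircular _, ?_⟩
  intro m i a hne ha h0
  refine F.isFree_colour frColour m i a hne (fun l => ?_) h0
  have h := ha l
  generalize i l = k at h
  cases k with
  | none =>
    refine Algebra.adjoin_le ?_ h
    rintro _ ⟨x, rfl⟩
    exact fr_Xop_zero_mem F x
  | some j =>
    refine Algebra.adjoin_le ?_ h
    rintro _ rfl
    exact Algebra.subset_adjoin ⟨Sum.inr j, rfl, rfl⟩

end P087
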